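import Vale.Agent.P062.All

/-! Maker wins the Snaky achievement game in the plane, with no handicap. -/

namespace Vale.Agent.Results.P062.SnakyMakerWins

open Vale.Agent.P062

theorem result :
    ∃ (σ : List Cell → Cell) (N : ℕ), MakerLegal σ ∧
      ∀ b : ℕ → Cell, BreakerLegal σ b N →
        ∃ P : Finset Cell, IsAllowedCopy P ∧ ∀ p ∈ P, ∃ i ≤ N, makerMove σ b i = p :=
  makerWins

end Vale.Agent.Results.P062.SnakyMakerWins
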